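import Vale.Agent.P281.H455.RC.Ev

/-!
# P281, theorem RC, row B: tensors with few poles vanish along rational curves
-/

open scoped Manifold ContDiff Topology ComplexOrder
open Set Filter Vale.Agent.P272.K
open Vale.Agent.P299.D (Ten tenPull FormM)

set_option linter.all false

noncomputable section

namespace Vale.Agent.P281.H455.RC

open Vale.Agent.P281.H167 Vale.Agent.P281.H167.RC Vale.Agent.P281.H716

section

variable {n q Q : ℕ} {X : Type} [TopologicalSpace X] [ChartedSpace (Cm n) X]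

/-- the value of the tensor along the curve, in the preferred charts -/
def hC (τ : Ten n Q X) (c : ℂ × Cm q → X) (w : Fin Q → ℂ × Cm q) (t : ℂ) : ℂ :=
  tev (τ (chartAt (Cm n) (c (t, 0))) (chartAt (Cm n) (c (t, 0)) (c (t, 0))))
    fun s => fderiv ℂ (fun a => chartAt (Cm n) (c (t, 0)) (c a)) (t, 0) (w s)

variable [IsManifold 𝓘(ℂ, Cm n) ω X]

lemma hC_eq {K : Set X → ℕ} {τ : Ten n Q X} (hτ : IsTenP Q K τ) {c : ℂ × Cm q → X} {t : ℂ}
    (hc : ContMDiffAt 𝓘(ℂ, ℂ × Cm q) 𝓘(ℂ, Cm n) ω c (t, 0)) {e : Chart n X}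
    (he : At e (c (t, 0))) (hx : ∀ D, K D ≠ 0 → c (t, 0) ∉ D) (w : Fin Q → ℂ × Cm q) :
    hC τ c w t = tev (τ e (e (c (t, 0)))) fun s => fderiv ℂ (fun a => e (c a)) (t, 0) (w s) := by
  have he0 : At (chartAt (Cm n) (c (t, 0))) (c (t, 0)) :=
    ⟨chart_mem_atlas (Cm n) _, mem_chart_source (Cm n) _⟩
  unfold hC
  rw [tev_change hτ he0 he hx]
  congr 1
  funext s
  exact (fderiv_change hc he0 he (w s)).symm

lemma hC_local {K : Set X → ℕ} {T : Finset (Set X)} (hT : ∀ D, K D ≠ 0 → D ∈ T) {τ : Ten n Q X}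
    (hτ : IsTenP Q K τ) {c : ℂ × Cm q → X} {t₀ : ℂ}
    (hc : ContMDiffAt 𝓘(ℂ, ℂ × Cm q) 𝓘(ℂ, Cm n) ω c (t₀, 0)) {l : Set X → ℕ}
    (hl : ∀ D ∈ T, HasOrd n D c t₀ (l D)) (w : Fin Q → ℂ × Cm q) :
    ∃ φ : ℂ → ℂ, AnalyticAt ℂ φ t₀ ∧
      ∀ᶠ s in 𝓝 t₀, ((∑ D ∈ T, K D * l D) = 0 ∨ s ≠ t₀) →
        hC τ c w s * (s - t₀) ^ (∑ D ∈ T, K D * l D) = φ s := by
  classical
  have hl' : ∀ D ∈ T, ∃ (g : X → ℂ) (u : ℂ → ℂ), J.IsLocalEq (Cm n) D g (c (t₀, 0)) ∧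
      AnalyticAt ℂ u t₀ ∧ u t₀ ≠ 0 ∧ ∀ᶠ s in 𝓝 t₀, g (c (s, 0)) = (s - t₀) ^ l D * u s := hl
  choose! g u hg hu hu0 huev using hl'
  set e : Chart n X := chartAt (Cm n) (c (t₀, 0)) with hedef
  have he : At e (c (t₀, 0)) := ⟨chart_mem_atlas (Cm n) _, mem_chart_source (Cm n) _⟩
  choose a ha haev using fun I => hτ.holo e (c (t₀, 0)) he T g hT hg I
  have hι : AnalyticAt ℂ (fun s : ℂ => ((s, 0) : ℂ × Cm q)) t₀ :=
    analyticAt_id.prod analyticAt_const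
  have hea : AnalyticAt ℂ (fun b => e (c b)) (t₀, 0) := analytic_chart hc he
  have hγ : AnalyticAt ℂ (fun s : ℂ => e (c (s, 0))) t₀ :=
    AnalyticAt.comp (g := fun b => e (c b)) (f := fun s : ℂ => ((s, 0) : ℂ × Cm q)) hea hι
  have hV : ∀ r, AnalyticAt ℂ (fun s : ℂ => fderiv ℂ (fun b => e (c b)) (s, 0) (w r)) t₀ := by
    intro r
    have h1 : AnalyticAt ℂ (fun s : ℂ => fderiv ℂ (fun b => e (c b)) (s, 0)) t₀ :=
      AnalyticAt.comp (g := fderiv ℂ (fun b => e (c b))) (f := fun s : ℂ => ((s, 0) : ℂ × Cm q))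
        hea.fderiv hι
    have h2 : ContDiffAt ℂ ω (fun s : ℂ => fderiv ℂ (fun b => e (c b)) (s, 0)) t₀ :=
      h1.contDiffAt
    exact (h2.clm_apply contDiffAt_const).analyticAt
  have hcc : Tendsto (fun s : ℂ => c (s, 0)) (𝓝 t₀) (𝓝 (c (t₀, 0))) :=
    Tendsto.comp (g := c) hc.continuousAt hι.continuousAt
  set U : ℂ → ℂ := fun s => ∏ D ∈ T, u D s ^ K D with hU
  have hUa : AnalyticAt ℂ U t₀ := Finset.analyticAt_fun_prod _ fun D hD => (hu D hD).pow _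
  have hU0 : U t₀ ≠ 0 := Finset.prod_ne_zero_iff.2 fun D hD => pow_ne_zero _ (hu0 D hD)
  set A : ℂ → ℂ := fun s => ∑ I, a I (e (c (s, 0))) *
    ∏ r, fderiv ℂ (fun b => e (c b)) (s, 0) (w r) (I r) with hA
  have hAa : AnalyticAt ℂ A t₀ := by
    refine Finset.analyticAt_fun_sum _ fun I _ => ?_
    have h0 : AnalyticAt ℂ (fun s : ℂ => a I (e (c (s, 0)))) t₀ :=
      AnalyticAt.comp (g := a I) (f := fun s : ℂ => e (c (s, 0))) (ha I) hγ
    refine h0.mul (Finset.analyticAt_fun_prod _ fun r _ => ?_)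
    exact (analyticAt_pi_iff.1 (hV r)) (I r)
  refine ⟨fun s => A s / U s, hAa.div hUa hU0, ?_⟩
  have h1 : ∀ᶠ s in 𝓝 t₀, ∀ D ∈ T, u D s ≠ 0 := by
    rw [Filter.eventually_all_finset]
    exact fun D hD => (hu D hD).continuousAt.eventually_ne (hu0 D hD)
  have h2 : ∀ᶠ s in 𝓝 t₀, ∀ D ∈ T, g D (c (s, 0)) = (s - t₀) ^ l D * u D s := by
    rw [Filter.eventually_all_finset]
    exact huev
  have h3 : ∀ᶠ s in 𝓝 t₀, ∀ D ∈ T, J.IsLocalEq (Cm n) D (g D) (c (s, 0)) := by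
    rw [Filter.eventually_all_finset]
    exact fun D hD => hcc.eventually (IsLocalEq.eventually (E := Cm n) (D := D) (hg D hD))
  have h4 : ∀ᶠ s in 𝓝 t₀, ∀ I, ∏ D ∈ T, g D (e.symm (e (c (s, 0)))) ^ K D ≠ 0 →
      τ e (e (c (s, 0))) I * ∏ D ∈ T, g D (e.symm (e (c (s, 0)))) ^ K D = a I (e (c (s, 0))) :=
    eventually_all.2 fun I => hγ.continuousAt.eventually (haev I)
  have h5 : ∀ᶠ s in 𝓝 t₀, ContMDiffAt 𝓘(ℂ, ℂ × Cm q) 𝓘(ℂ, Cm n) ω c (s, 0) :=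
    hι.continuousAt.eventually ((contMDiffAt_iff_contMDiffAt_nhds (by simp)).1 hc)
  filter_upwards [h1, h2, h3, h4, h5, hcc.eventually (e.open_source.mem_nhds he.2)]
    with s k1 k2 k3 k4 k5 k6 hor
  have hes : At e (c (s, 0)) := ⟨he.1, k6⟩
  have hgne : ∀ D ∈ T, K D ≠ 0 → g D (c (s, 0)) ≠ 0 := by
    intro D hD hKD
    rw [k2 D hD]
    refine mul_ne_zero ?_ (k1 D hD)
    rcases hor with hor | hor
    · have h6 := Finset.sum_eq_zero_iff.1 hor D hD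
      have h7 : l D = 0 := (Nat.mul_eq_zero.1 h6).resolve_left hKD
      rw [h7, pow_zero]
      exact one_ne_zero
    · exact pow_ne_zero _ (sub_ne_zero.2 hor)
  have hoff : ∀ D, K D ≠ 0 → c (s, 0) ∉ D := fun D hD hmem =>
    hgne D (hT D hD) hD ((IsLocalEq.mem_iff (E := Cm n) (D := D) (k3 D (hT D hD))).1 hmem)
  have hprod : ∏ D ∈ T, g D (c (s, 0)) ^ K D ≠ 0 := by
    refine Finset.prod_ne_zero_iff.2 fun D hD => ?_
    by_cases hKD : K D = 0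
    · rw [hKD, pow_zero]
      exact one_ne_zero
    · exact pow_ne_zero _ (hgne D hD hKD)
  have hUs : U s ≠ 0 := Finset.prod_ne_zero_iff.2 fun D hD => pow_ne_zero _ (k1 D hD)
  have h9 : ∏ D ∈ T, g D (c (s, 0)) ^ K D = (s - t₀) ^ (∑ D ∈ T, K D * l D) * U s := by
    simp only [hU]
    rw [← Finset.prod_pow_eq_pow_sum, ← Finset.prod_mul_distrib]
    refine Finset.prod_congr rfl fun D hD => ?_
    rw [k2 D hD, mul_pow, ← pow_mul, mul_comm (l D)]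
  rw [hC_eq hτ k5 hes hoff, eq_div_iff hUs]
  simp only [hA, tev]
  rw [mul_assoc, ← h9, Finset.sum_mul]
  refine Finset.sum_congr rfl fun I _ => ?_
  have h10 := k4 I
  rw [e.left_inv k6] at h10
  rw [← h10 hprod]
  ring

/-- the two expressions of the tensor along the curve -/
lemma hC_glue {τ : Ten n Q X} {c c' : ℂ × Cm q → X} {s : ℂ} (hs : s ≠ 0)
    (hc' : ContMDiffAt 𝓘(ℂ, ℂ × Cm q) 𝓘(ℂ, Cm n) ω c' (s, 0))
    (hglue : ∀ᶠ w in 𝓝 ((s⁻¹, 0) : ℂ × Cm q), c w = c' (w.1⁻¹, w.2))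
    {w : Fin Q → ℂ × Cm q} (hw : ∀ s, w s = (1, 0) ∨ (w s).1 = 0) :
    hC τ c w s⁻¹ = (-(s ^ 2)) ^ Nat.card {r // w r = (1, 0)} * hC τ c' w s := by
  classical
  have h1 : c (s⁻¹, 0) = c' (s, 0) := by
    have h2 := hglue.self_of_nhds
    simpa using h2
  set e : Chart n X := chartAt (Cm n) (c' (s, 0)) with hedef
  have he : At e (c' (s, 0)) := ⟨chart_mem_atlas (Cm n) _, mem_chart_source (Cm n) _⟩
  set cr : Fin Q → ℂ := fun r => if w r = (1, 0) then -(s ^ 2) else 1 with hcr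
  have hd : HasFDerivAt (fun b : ℂ × Cm q => e (c' b)) (fderiv ℂ (fun b => e (c' b)) (s, 0))
      (s, 0) := (analytic_chart hc' he).differentiableAt.hasFDerivAt
  have hfst : HasFDerivAt (fun a : ℂ × Cm q => a.1⁻¹)
      ((-((s⁻¹ : ℂ) ^ 2)⁻¹) • ContinuousLinearMap.fst ℂ ℂ (Cm q)) (s⁻¹, 0) :=
    (hasDerivAt_inv (inv_ne_zero hs)).comp_hasFDerivAt ((s⁻¹, 0) : ℂ × Cm q) hasFDerivAt_fst
  have hpair : HasFDerivAt (fun a : ℂ × Cm q => (a.1⁻¹, a.2))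
      (((-((s⁻¹ : ℂ) ^ 2)⁻¹) • ContinuousLinearMap.fst ℂ ℂ (Cm q)).prod
        (ContinuousLinearMap.snd ℂ ℂ (Cm q))) (s⁻¹, 0) := hfst.prodMk hasFDerivAt_snd
  have hd' : HasFDerivAt (fun b : ℂ × Cm q => e (c' b)) (fderiv ℂ (fun b => e (c' b)) (s, 0))
      ((fun a : ℂ × Cm q => (a.1⁻¹, a.2)) (s⁻¹, 0)) := by
    simpa using hd
  have hcomp := hd'.comp ((s⁻¹, 0) : ℂ × Cm q) hpair
  have hder : ∀ r, fderiv ℂ (fun a => e (c a)) (s⁻¹, 0) (w r) =
      cr r • fderiv ℂ (fun b => e (c' b)) (s, 0) (w r) := by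
    intro r
    have h3 : (fun a => e (c a)) =ᶠ[𝓝 ((s⁻¹, 0) : ℂ × Cm q)]
        (fun b : ℂ × Cm q => e (c' b)) ∘ fun a => (a.1⁻¹, a.2) := by
      filter_upwards [hglue] with a ha
      simp only [Function.comp_apply, ha]
    rw [h3.fderiv_eq, hcomp.fderiv]
    simp only [ContinuousLinearMap.comp_apply, ContinuousLinearMap.prod_apply,
      ContinuousLinearMap.smul_apply, ContinuousLinearMap.coe_fst', ContinuousLinearMap.coe_snd',
      smul_eq_mul]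
    rcases hw r with h4 | h4
    · simp only [hcr, if_pos h4]
      rw [← map_smul]
      congr 1
      rw [h4]
      ext
      · simp
      · simp
    · have h5 : ¬ w r = (1, 0) := by
        intro h6
        rw [h6] at h4
        exact one_ne_zero h4
      simp only [hcr, if_neg h5, one_smul]
      congr 1
      rw [h4, mul_zero, ← h4]
  have hprod : ∏ r, cr r = (-(s ^ 2)) ^ Nat.card {r // w r = (1, 0)} := by
    simp only [hcr]
    rw [Finset.prod_ite, Finset.prod_const, Finset.prod_const_one, mul_one,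
      Nat.card_eq_fintype_card, Fintype.card_subtype]
  unfold hC
  rw [h1, ← hprod, ← tev_smul]
  congr 1
  funext r
  exact hder r

end

/-- **Row B** -/
theorem curvePart : CurvePart := by
  intro n q Q μ X _ _ _ _ Δ hΔ K hK τ hτ hμ c c' hcc hc0 w hw hcard e he
  classical
  obtain ⟨Qs, l, l', hord, hdeg⟩ := hcc.deg
  set T : Finset (Set X) := hΔ.1.toFinset with hTdef
  have hTΔ : ∀ D, D ∈ T ↔ Δ D ≠ 0 := fun D => Set.Finite.mem_toFinset _
  have hKΔ : ∀ D, K D ≠ 0 → Δ D ≠ 0 := by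
    intro D hD h0
    have h1 := hK D
    rw [h0, mul_zero] at h1
    exact hD (by exact_mod_cast h1)
  have hKT : ∀ D, K D ≠ 0 → D ∈ T := fun D hD => (hTΔ D).2 (hKΔ D hD)
  have hl0 : ∀ D, Δ D ≠ 0 → l D 0 = 0 := by
    intro D hD
    by_contra hne
    obtain ⟨g, u, hg, hu, hu0, hev⟩ := (hord D hD).2.1 0
    have h1 := hev.self_of_nhds
    rw [sub_zero, zero_pow hne, zero_mul] at h1
    exact hc0 D hD ((IsLocalEq.mem_iff (E := Cm n) (D := D) hg).2 h1)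
  have hsum : ∑ t ∈ Qs, ∑ D ∈ T, K D * l D t + ∑ D ∈ T, K D * l' D <
      2 * Nat.card {s // w s = (1, 0)} := by
    have h1 : (((∑ t ∈ Qs, ∑ D ∈ T, K D * l D t + ∑ D ∈ T, K D * l' D : ℕ)) : ℝ) =
        μ * ∑ᶠ D, Δ D * (∑ t ∈ Qs, (l D t : ℝ) + l' D) := by
      rw [finsum_eq_sum_of_support_subset (s := T) _ (fun D hD => by
        rw [Finset.mem_coe, hTΔ]
        exact left_ne_zero_of_mul hD)]
      push_cast
      rw [Finset.sum_comm, ← Finset.sum_add_distrib, Finset.mul_sum]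
      refine Finset.sum_congr rfl fun D _ => ?_
      rw [← Finset.mul_sum, hK D]
      ring
    have h2 : (((∑ t ∈ Qs, ∑ D ∈ T, K D * l D t + ∑ D ∈ T, K D * l' D : ℕ)) : ℝ) < 2 * μ := by
      rw [h1]
      have h3 : (0 : ℝ) < μ := by exact_mod_cast hμ
      nlinarith
    have h4 : (((∑ t ∈ Qs, ∑ D ∈ T, K D * l D t + ∑ D ∈ T, K D * l' D : ℕ)) : ℝ) <
        ((2 * μ : ℕ) : ℝ) := by
      push_cast at h2 ⊢
      exact h2
    have h5 := Nat.cast_lt.1 h4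
    omega
  have hkey : hC τ c w 0 = 0 := by
    refine lioPart (hC τ c w) (hC τ c' w) Qs (fun t => ∑ D ∈ T, K D * l D t)
      (∑ D ∈ T, K D * l' D) (Nat.card {s // w s = (1, 0)}) (fun t ht => ?_)
      (fun t => hC_local hKT hτ (hcc.hol t) (fun D hD => (hord D ((hTΔ D).1 hD)).2.1 t) w) ?_ ?_
      hsum ?_
    · refine Finset.sum_eq_zero fun D hD => ?_
      rw [(hord D ((hTΔ D).1 hD)).1 t ht, mul_zero]
    · obtain ⟨φ, hφ, hev⟩ := hC_local hKT hτ (hcc.hol')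
        (fun D hD => (hord D ((hTΔ D).1 hD)).2.2) w
      refine ⟨φ, hφ, ?_⟩
      filter_upwards [hev] with s hs hs0
      have h1 := hs (Or.inr hs0)
      rwa [sub_zero] at h1
    · have hι : ContinuousAt (fun s : ℂ => ((s, 0) : ℂ × Cm q)) 0 := by fun_prop
      have h5 : ∀ᶠ s in 𝓝 (0 : ℂ), ContMDiffAt 𝓘(ℂ, ℂ × Cm q) 𝓘(ℂ, Cm n) ω c' (s, 0) :=
        hι.eventually ((contMDiffAt_iff_contMDiffAt_nhds (by simp)).1 hcc.hol')
      filter_upwards [h5] with s hs hs0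
      exact hC_glue hs0 hs (hcc.glue s⁻¹ (inv_ne_zero hs0)) hw
    · refine Finset.sum_eq_zero fun D hD => ?_
      rw [hl0 D ((hTΔ D).1 hD), mul_zero]
  rw [← hC_eq hτ (hcc.hol 0) he (fun D hD => hc0 D (hKΔ D hD)) w]
  exact hkey

end Vale.Agent.P281.H455.RC
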