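import Mathlib.Analysis.Complex.Liouville
import Mathlib.Analysis.Complex.CauchyIntegral

/-!
# P281: a meromorphic function on `ℙ¹` with fewer poles than zeros vanishes
-/

open Set Filter Topology

set_option linter.all false

noncomputable section

namespace Vale.Agent.P281.H455.RC

lemma eq_of_ne_ev {f g : ℂ → ℂ} {y : ℂ} (hf : ContinuousAt f y) (hg : ContinuousAt g y)
    (h : ∀ᶠ z in 𝓝[≠] y, f z = g z) : f y = g y := by
  refine tendsto_nhds_unique_of_eventuallyEq (hf.tendsto.mono_left nhdsWithin_le_nhds)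
    (hg.tendsto.mono_left nhdsWithin_le_nhds) h

/-- A function `h` on `ℂ`, meromorphic with poles of order `≤ p s` at `s`, and with
`h (1/w) = w^(q - p₁) a(w)`, `a` holomorphic near `0`, vanishes if `∑ p s + p₁ < q`. -/
theorem liouville {h : ℂ → ℂ} {S : Finset ℂ} {p : ℂ → ℕ} {p₁ q : ℕ} (hS : ∀ s, s ∉ S → p s = 0)
    (hloc : ∀ s, ∃ a : ℂ → ℂ, AnalyticAt ℂ a s ∧ ∀ᶠ z in 𝓝[≠] s, h z * (z - s) ^ p s = a z)
    (hinf : ∃ a : ℂ → ℂ, AnalyticAt ℂ a 0 ∧ ∀ᶠ w in 𝓝[≠] (0 : ℂ), h w⁻¹ * w ^ p₁ = w ^ q * a w)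
    (hlt : ∑ s ∈ S, p s + p₁ < q) (s : ℂ) : ∀ᶠ z in 𝓝[≠] s, h z = 0 := by
  classical
  choose a ha haev using hloc
  obtain ⟨b, hb, hbev⟩ := hinf
  set P : ℂ → ℂ := fun z => ∏ s ∈ S, (z - s) ^ p s with hP
  set Q : ℂ → ℂ → ℂ := fun s z => ∏ s' ∈ S.erase s, (z - s') ^ p s' with hQ
  have hPQ : ∀ s z, P z = (z - s) ^ p s * Q s z := by
    intro s z
    by_cases hs : s ∈ S
    · exact (Finset.mul_prod_erase S (fun s' => (z - s') ^ p s') hs).symm
    · simp only [hP, hQ]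
      rw [Finset.erase_eq_of_notMem hs, hS s hs, pow_zero, one_mul]
  have hPa : ∀ z, AnalyticAt ℂ P z := by
    intro z
    refine Finset.analyticAt_fun_prod _ fun s _ => ?_
    exact (analyticAt_id.sub analyticAt_const).pow _
  have hQa : ∀ s z, AnalyticAt ℂ (Q s) z := by
    intro s z
    refine Finset.analyticAt_fun_prod _ fun s _ => ?_
    exact (analyticAt_id.sub analyticAt_const).pow _
  set B : ℂ → ℂ → ℂ := fun s z => a s z * Q s z with hB
  have hBa : ∀ s, AnalyticAt ℂ (B s) s := fun s => (ha s).mul (hQa s s)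
  have hBev : ∀ s, ∀ᶠ z in 𝓝[≠] s, h z * P z = B s z := by
    intro s
    filter_upwards [haev s] with z hz
    rw [hPQ s z, ← mul_assoc, hz]
  set G : ℂ → ℂ := fun z => B z z with hG
  have hGB : ∀ s, G =ᶠ[𝓝 s] B s := by
    intro s
    have h1 : ∀ᶠ z in 𝓝 s, z ≠ s → h z * P z = B s z := eventually_nhdsWithin_iff.1 (hBev s)
    filter_upwards [eventually_eventually_nhds.2 h1, (hBa s).eventually_analyticAt] with y h2 h3
    by_cases hys : y = s
    · rw [hys]
    · show B y y = B s y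
      refine eq_of_ne_ev (hBa y).continuousAt h3.continuousAt ?_
      filter_upwards [hBev y, nhdsWithin_le_nhds h2,
        nhdsWithin_le_nhds (isOpen_ne.mem_nhds hys)] with z h4 h5 h6
      rw [← h4, h5 h6]
  have hGd : Differentiable ℂ G := fun s => ((hBa s).congr (hGB s).symm).differentiableAt
  -- at infinity
  set N : ℕ := ∑ s ∈ S, p s with hN
  set R : ℂ → ℂ := fun w => ∏ s ∈ S, (1 - s * w) ^ p s with hR
  have hRc : Continuous R := by
    refine continuous_finset_prod _ fun s _ => ?_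
    exact (continuous_const.sub (continuous_const.mul continuous_id)).pow _
  have hPR : ∀ w : ℂ, w ≠ 0 → P w⁻¹ * w ^ N = R w := by
    intro w hw
    simp only [hP, hN, hR]
    rw [← Finset.prod_pow_eq_pow_sum, ← Finset.prod_mul_distrib]
    refine Finset.prod_congr rfl fun s _ => ?_
    rw [← mul_pow, sub_mul, inv_mul_cancel₀ hw]
  have hGinf : ∀ᶠ w in 𝓝[≠] (0 : ℂ), G w⁻¹ = w ^ (q - (N + p₁)) * b w * R w := by
    have h1 : ∀ᶠ w in 𝓝 (0 : ℂ), w ≠ 0 → h w⁻¹ * w ^ p₁ = w ^ q * b w :=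
      eventually_nhdsWithin_iff.1 hbev
    rw [eventually_nhdsWithin_iff]
    filter_upwards [eventually_eventually_nhds.2 h1, hb.eventually_analyticAt] with w h2 h3 hw
    have hw : w ≠ 0 := hw
    have hinv : ContinuousAt (fun z : ℂ => z⁻¹) w := continuousAt_inv₀ hw
    have h4 : Tendsto (fun z : ℂ => z⁻¹) (𝓝[≠] w) (𝓝[≠] w⁻¹) := by
      refine tendsto_nhdsWithin_iff.2 ⟨hinv.tendsto.mono_left nhdsWithin_le_nhds, ?_⟩
      filter_upwards [self_mem_nhdsWithin] with z hz h5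
      exact hz (inv_injective h5)
    have h5 : ContinuousAt (fun z : ℂ => G z⁻¹) w :=
      ContinuousAt.comp (g := G) (hGd w⁻¹).continuousAt hinv
    have h6 : ContinuousAt (fun w : ℂ => w ^ (q - (N + p₁)) * b w * R w) w :=
      ((continuousAt_id.pow _).mul h3.continuousAt).mul hRc.continuousAt
    refine eq_of_ne_ev h5 h6 ?_
    filter_upwards [h4.eventually (hBev w⁻¹), h4.eventually (nhdsWithin_le_nhds (hGB w⁻¹)),
      nhdsWithin_le_nhds h2, nhdsWithin_le_nhds (isOpen_ne.mem_nhds hw)] with z h7 h8 h9 hz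
    have h10 := h9 hz
    have hzp : z ^ p₁ * z ^ N ≠ 0 := mul_ne_zero (pow_ne_zero _ hz) (pow_ne_zero _ hz)
    refine mul_right_cancel₀ hzp ?_
    have h11 : z ^ q = z ^ (q - (N + p₁)) * (z ^ p₁ * z ^ N) := by
      rw [← pow_add, ← pow_add]
      congr 1
      omega
    have h12 := hPR z hz
    calc G z⁻¹ * (z ^ p₁ * z ^ N) = (h z⁻¹ * P z⁻¹) * (z ^ p₁ * z ^ N) := by rw [h8, ← h7]
      _ = (h z⁻¹ * z ^ p₁) * (P z⁻¹ * z ^ N) := by ring
      _ = z ^ q * b z * R z := by rw [h10, h12]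
      _ = z ^ (q - (N + p₁)) * b z * R z * (z ^ p₁ * z ^ N) := by rw [h11]; ring
  have hlim0 : Tendsto (fun w : ℂ => G w⁻¹) (𝓝[≠] 0) (𝓝 0) := by
    have h1 : ContinuousAt (fun w : ℂ => w ^ (q - (N + p₁)) * b w * R w) 0 :=
      ((continuousAt_id.pow _).mul hb.continuousAt).mul hRc.continuousAt
    have h2 : (fun w : ℂ => w ^ (q - (N + p₁)) * b w * R w) 0 = 0 := by
      show (0 : ℂ) ^ (q - (N + p₁)) * b 0 * R 0 = 0
      rw [zero_pow (by omega)]
      ring
    have h3 : Tendsto (fun w : ℂ => w ^ (q - (N + p₁)) * b w * R w) (𝓝[≠] 0) (𝓝 0) := by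
      have h4 := h1.tendsto.mono_left (nhdsWithin_le_nhds (s := {(0 : ℂ)}ᶜ))
      have h5 : (0 : ℂ) ^ (q - (N + p₁)) * b 0 * R 0 = 0 := h2
      rwa [h5] at h4
    refine h3.congr' ?_
    filter_upwards [hGinf] with w hw
    rw [hw]
  have hlim : Tendsto G (cocompact ℂ) (𝓝 0) := by
    have h1 : Tendsto (fun z : ℂ => z⁻¹) (cocompact ℂ) (𝓝[≠] 0) := by
      rw [← Metric.cobounded_eq_cocompact]
      exact tendsto_inv₀_cobounded'
    have h2 := hlim0.comp h1
    refine h2.congr fun z => ?_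
    simp
  have hG0 : G = fun _ => 0 := hGd.eq_const_of_tendsto_cocompact hlim
  -- conclusion
  have hP0 : ∀ᶠ z in 𝓝[≠] s, P z ≠ 0 := by
    have h1 : ∀ᶠ z in 𝓝[≠] s, ∀ s' ∈ S, z ≠ s' := by
      rw [Filter.eventually_all_finset]
      intro s' _
      by_cases hs : s = s'
      · subst hs
        exact self_mem_nhdsWithin
      · exact nhdsWithin_le_nhds (isOpen_ne.mem_nhds hs)
    filter_upwards [h1] with z hz
    exact Finset.prod_ne_zero_iff.2 fun s' hs' => pow_ne_zero _ (sub_ne_zero.2 (hz s' hs'))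
  filter_upwards [hP0, hBev s, nhdsWithin_le_nhds (hGB s)] with z h1 h2 h3
  have h4 : B s z = 0 := by
    rw [← h3, hG0]
  rw [h4] at h2
  exact (mul_eq_zero.1 h2).resolve_right h1

end Vale.Agent.P281.H455.RC
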