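import Vale.Agent.P281.H167.RC.Iface
import Vale.Agent.P281.H455.RC.Liou

/-!
# P281, theorem RC, rows A and B: tensors along rational curves
-/

open scoped Manifold ContDiff Topology ComplexOrder
open Set Filter Vale.Agent.P272.K
open Vale.Agent.P299.D (Ten tenPull FormM)

set_option linter.all false

noncomputable section

namespace Vale.Agent.P281.H455.RC

open Vale.Agent.P281.H167 Vale.Agent.P281.H167.RC Vale.Agent.P281.H716

/-- **Row A** -/
theorem lioPart : LioPart := by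
  intro h h' Q o o' b hQ hloc hloc' hinf hlt ho0
  have h1 := liouville (h := h) (S := Q) (p := o) (p₁ := o') (q := 2 * b) hQ (fun t => by
    obtain ⟨φ, hφ, hev⟩ := hloc t
    refine ⟨φ, hφ, ?_⟩
    rw [eventually_nhdsWithin_iff]
    filter_upwards [hev] with s hs hst
    exact hs (Or.inr hst)) (by
    obtain ⟨φ, hφ, hev⟩ := hloc'
    refine ⟨fun s => (-1) ^ b * φ s, analyticAt_const.mul hφ, ?_⟩
    rw [eventually_nhdsWithin_iff]
    filter_upwards [hev, hinf] with s h2 h3 hs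
    rw [h3 hs]
    have h4 := h2 hs
    calc (-(s ^ 2)) ^ b * h' s * s ^ o' = (-(s ^ 2)) ^ b * (h' s * s ^ o') := by ring
      _ = s ^ (2 * b) * ((-1) ^ b * φ s) := by
        rw [h4, pow_mul, ← neg_one_mul (s ^ 2), mul_pow]
        ring) hlt 0
  obtain ⟨φ, hφ, hev⟩ := hloc 0
  rw [ho0] at hev
  simp only [sub_zero, pow_zero, mul_one, true_or, forall_const] at hev
  have h2 : φ 0 = 0 := by
    refine eq_of_ne_ev hφ.continuousAt (continuousAt_const (y := (0 : ℂ))) ?_
    filter_upwards [h1, nhdsWithin_le_nhds hev] with s h3 h4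
    rw [← h4, h3]
  rw [hev.self_of_nhds, h2]

lemma tev_pull {n d q : ℕ} (J : Matrix (Fin n) (Fin d) ℂ) (a : (Fin q → Fin n) → ℂ)
    (V : Fin q → Cm d) : tev (tenPull J a) V = tev a fun r => J.mulVec (V r) := by
  unfold tev tenPull
  simp_rw [Finset.sum_mul]
  rw [Finset.sum_comm]
  refine Finset.sum_congr rfl fun K _ => ?_
  have h1 : ∀ I : Fin q → Fin d, (∏ r, J (K r) (I r)) * a K * ∏ r, V r (I r) =
      a K * ∏ r, (J (K r) (I r) * V r (I r)) := by
    intro I
    rw [Finset.prod_mul_distrib]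
    ring
  simp_rw [h1]
  rw [← Finset.mul_sum]
  congr 1
  simp only [Matrix.mulVec, dotProduct]
  rw [Finset.prod_univ_sum, Fintype.piFinset_univ]

lemma tev_smul {n q : ℕ} (a : (Fin q → Fin n) → ℂ) (V : Fin q → Cm n) (c : Fin q → ℂ) :
    tev a (fun r => c r • V r) = (∏ r, c r) * tev a V := by
  unfold tev
  rw [Finset.mul_sum]
  refine Finset.sum_congr rfl fun I _ => ?_
  simp only [Pi.smul_apply, smul_eq_mul]
  rw [Finset.prod_mul_distrib]
  ring

section

variable {n q Q : ℕ} {X : Type} [TopologicalSpace X] [ChartedSpace (Cm n) X]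
  [IsManifold 𝓘(ℂ, Cm n) ω X]

/-- change of chart -/
lemma tev_change {K : Set X → ℕ} {τ : Ten n Q X} (hτ : IsTenP Q K τ) {e e' : Chart n X} {x : X}
    (he : At e x) (he' : At e' x) (hx : ∀ D, K D ≠ 0 → x ∉ D) (V : Fin Q → Cm n) :
    tev (τ e (e x)) V = tev (τ e' (e' x)) fun r => (jacM e e' x).mulVec (V r) := by
  rw [← tev_pull]
  congr 1
  funext I
  exact hτ.change e e' x he he' hx I

/-- the map in a chart -/
lemma analytic_chart {c : ℂ × Cm q → X} {a₀ : ℂ × Cm q}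
    (hc : ContMDiffAt 𝓘(ℂ, ℂ × Cm q) 𝓘(ℂ, Cm n) ω c a₀) {e : Chart n X} (he : At e (c a₀)) :
    AnalyticAt ℂ (fun a => e (c a)) a₀ := by
  have h1 : ContMDiffAt 𝓘(ℂ, ℂ × Cm q) 𝓘(ℂ, Cm n) ω (fun a => e (c a)) a₀ :=
    ContMDiffAt.comp a₀ (chart_contMDiffAt he) hc
  exact (contMDiffAt_iff_contDiffAt.1 h1).analyticAt

lemma fderiv_change {c : ℂ × Cm q → X} {a₀ : ℂ × Cm q}
    (hc : ContMDiffAt 𝓘(ℂ, ℂ × Cm q) 𝓘(ℂ, Cm n) ω c a₀) {e e' : Chart n X} (he : At e (c a₀))
    (he' : At e' (c a₀)) (v : ℂ × Cm q) :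
    fderiv ℂ (fun a => e' (c a)) a₀ v =
      (jacM e e' (c a₀)).mulVec (fderiv ℂ (fun a => e (c a)) a₀ v) := by
  have h1 : (fun a => e' (c a)) =ᶠ[𝓝 a₀] fun a => (fun z => e' (e.symm z)) (e (c a)) := by
    filter_upwards [hc.continuousAt.eventually (e.open_source.mem_nhds he.2)] with a ha
    show e' (c a) = e' (e.symm (e (c a)))
    rw [e.left_inv ha]
  have h2 : DifferentiableAt ℂ (fun z => e' (e.symm z)) (e (c a₀)) :=
    (INT.transition_contDiffAt he he').differentiableAt (by simp)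
  have h3 : DifferentiableAt ℂ (fun a => e (c a)) a₀ := (analytic_chart hc he).differentiableAt
  rw [h1.fderiv_eq]
  have h4 := fderiv_comp (x := a₀) (g := fun z => e' (e.symm z)) (f := fun a => e (c a)) h2 h3
  have h5 : fderiv ℂ (fun a => (fun z => e' (e.symm z)) (e (c a))) a₀ v =
      fderiv ℂ (fun z => e' (e.symm z)) (e (c a₀)) (fderiv ℂ (fun a => e (c a)) a₀ v) :=
    congrArg (fun T : ℂ × Cm q →L[ℂ] Cm n => T v) h4
  rw [h5]
  funext p
  rw [jmat_mulVec h2]
  rfl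

end

end Vale.Agent.P281.H455.RC
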